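import Vale.Agent.P022E.As.Defs2

/-!
# P022G: the target of the forms side, with the principal series modules
-/

set_option linter.all false

open IsLocalRing

noncomputable section

namespace Vale.Agent.P022G.Ps

open Vale.Agent.P022 Vale.Agent.P022E.R Vale.Agent.P022E.As
open Vale.Agent.P022E.Loc (Pl)

variable {O F : Type} [CommRing O] [IsLocalRing O] [Field F]

/-- a flat module with reduction `Yi` on which the trace of `s` vanishes -/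
structure Ps2 (ϖ : O) (S : Dat O F) (L : Pl O) {r : ℕ} (n : ℕ) (q : Fin r → ℕ) (τ : Fin r → GQ)
    (s : GQ) (Yi Pc : Type) [AddCommGroup Yi] [Module (Tg O) Yi] [AddCommGroup Pc]
    [Module (Tg O) Pc] : Prop where
  gm : Gm ϖ L S.T (Finset.univ.image q) r Pc
  dia : Dia (O := O) n τ Pc
  red : ∃ e : Yi →ₗ[Tg O] Pc, Function.Injective e ∧ ∀ w, w ∈ LinearMap.range e ↔ cc ϖ • w = 0
  piC : ∀ w : Pc, cc ϖ ^ (n + 1) • w = 0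
  flat : ∀ w : Pc, cc ϖ • w = 0 → ∃ w' : Pc, w = cc ϖ ^ n • w'
  ps : ∀ w : Pc, (tt s : Tg O) • w = 0

/-- **the target of the forms side** -/
structure HD3 (ϖ : O) (S : Dat O F) (L : Pl O) {I : Type} (Y0 : I → Type) (W0 : Type)
    [∀ i, AddCommGroup (Y0 i)] [∀ i, Module (Tg O) (Y0 i)] [AddCommGroup W0] [Module (Tg O) W0]
    (ses : I → I → I → Prop) (ig ib : I) (iJ : Finset L.C → I) : Prop where
  comb : ∀ a a' : L.C → ℕ, (∀ l : L.C, ∃ u, (l : ℕ) = 2 ^ (a l + 1) * (2 * u + 1) + 1) →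
    (∀ l : L.C, ∃ v, (l : ℕ) + 1 = 2 ^ (a' l + 1) * (2 * v + 1)) →
    ∀ N : I → ℕ∞, (∀ i j k, ses i j k → N j = N i + N k) →
      ∀ J, (mul2 a a' J : ℕ∞) * N (iJ J) ≤ N ig
  low : ∀ N : I → ℕ∞, (∀ i j k, ses i j k → N j = N i + N k) → (N ib ≠ 0 ↔ ∃ J, N (iJ J) ≠ 0)
  gm0 : ∀ i, Gm ϖ L S.T ∅ 0 (Y0 i)
  gmW : Gm ϖ L S.T ∅ 0 W0
  pi0 : ∀ i (w : Y0 i), cc ϖ • w = 0
  sb0 : ∀ i, ∃ b, Sb2 (mT L.r) b (Y0 i)
  det0 : ∀ J g, ∃ n : ℕ, 0 < n ∧ ∀ w : Y0 (iJ J), (dd g : Tg O) ^ n • w = w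
  big : ∀ J : Finset L.C, Big (mT L.r) (Y0 (iJ J))
  lev : ∀ r : ℕ, ∃ (b : I → ℕ) (c n₀ : ℕ) (A : Finset ℕ), ∀ (n : ℕ) (q : Fin r → ℕ),
    Function.Injective q → (∀ i, Aq S.rb (A ∪ S.T) (n + n₀) (q i)) →
    ∃ (τ φ : Fin r → GQ) (Yb : I → Type) (Wc : Type) (Pc : L.C → Type)
      (_ : ∀ i, AddCommGroup (Yb i)) (_ : ∀ i, Module (Tg O) (Yb i)) (_ : AddCommGroup Wc)
      (_ : Module (Tg O) Wc) (_ : ∀ a, AddCommGroup (Pc a)) (_ : ∀ a, Module (Tg O) (Pc a)),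
      Lv2 ϖ S L Y0 W0 ses ig iJ b c n q τ φ Yb Wc ∧
      ∀ a : L.C, 4 ∣ (a : ℕ) - 1 → L.r (L.τ a) = 1 → Ps2 ϖ S L n q τ (L.τ a) (Yb ib) (Pc a)

theorem HD3.hd2 {ϖ : O} {S : Dat O F} {L : Pl O} {I : Type} {Y0 : I → Type} {W0 : Type}
    [∀ i, AddCommGroup (Y0 i)] [∀ i, Module (Tg O) (Y0 i)] [AddCommGroup W0] [Module (Tg O) W0]
    {ses : I → I → I → Prop} {ig ib : I} {iJ : Finset L.C → I}
    (h : HD3 ϖ S L Y0 W0 ses ig ib iJ) : HD2 ϖ S L Y0 W0 ses ig iJ :=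
  { comb := h.comb, gm0 := h.gm0, gmW := h.gmW, pi0 := h.pi0, sb0 := h.sb0, det0 := h.det0
    big := fun J _ => h.big J
    lev := fun r => by
      obtain ⟨b, c, n₀, A, k⟩ := h.lev r
      refine ⟨b, c, n₀, A, fun n q h1 h2 => ?_⟩
      obtain ⟨τ, φ, Yb, Wc, _, i1, i2, i3, i4, _, _, e, -⟩ := k n q h1 h2
      exact ⟨τ, φ, Yb, Wc, i1, i2, i3, i4, e⟩ }

end Vale.Agent.P022G.Ps
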