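import Mathlib

/-!
P022G, principal series: the socle of an extension.
-/

set_option linter.all false

namespace Vale.Agent.P022G.Ps

/-- the socle is spanned by `b` elements -/
def Sc {R : Type} [CommRing R] (m : Ideal R) (b : ℕ) (Y : Type) [AddCommGroup Y] [Module R Y] :
    Prop := ∃ s : Fin b → Y, (∀ j, ∀ u ∈ m, u • s j = 0) ∧
  ∀ w : Y, (∀ u ∈ m, u • w = 0) → w ∈ Submodule.span R (Set.range s)

variable {R A B C : Type} [CommRing R] {m : Ideal R} [AddCommGroup A] [Module R A]
  [AddCommGroup B] [Module R B] [AddCommGroup C] [Module R C]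

theorem Sc.mono {a b : ℕ} (h : a ≤ b) (hA : Sc m a A) : Sc m b A := by
  obtain ⟨s, h1, h2⟩ := hA
  refine ⟨fun j => if c : j.1 < a then s ⟨j, c⟩ else 0, fun j u hu => ?_,
    fun w hw => Submodule.span_mono ?_ (h2 w hw)⟩
  · beta_reduce
    split_ifs
    exacts [h1 _ u hu, smul_zero _]
  · rintro _ ⟨j, rfl⟩
    exact ⟨⟨j, j.2.trans_le h⟩, dif_pos j.2⟩

theorem Sc.ses (hm : m.IsMaximal) (f : A →ₗ[R] B) (g : B →ₗ[R] C) (hf : Function.Injective f)
    (he : Function.Exact f g) {a c : ℕ} (hA : Sc m a A) (hC : Sc m c C) : Sc m (a + c) B := by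
  classical
  letI := Ideal.Quotient.field m
  obtain ⟨s, s1, s2⟩ := hA
  obtain ⟨t, t1, t2⟩ := hC
  have mt : ∀ {X : Type} [AddCommGroup X] [Module R X] (x : X),
      x ∈ Submodule.torsionBySet R X m ↔ ∀ u ∈ m, u • x = 0 := fun x => by
    rw [Submodule.mem_torsionBySet_iff]
    exact ⟨fun h u hu => h ⟨u, hu⟩, fun h u => h u u.2⟩
  let g' : Submodule.torsionBySet R B m →ₗ[R ⧸ m] Submodule.torsionBySet R C m :=
    { toFun := fun x => ⟨g x, (mt _).2 fun u hu => by rw [← map_smul, (mt _).1 x.2 u hu, map_zero]⟩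
      map_add' := fun x y => Subtype.ext (map_add g _ _)
      map_smul' := fun r x => by
        obtain ⟨r, rfl⟩ := Ideal.Quotient.mk_surjective r
        exact Subtype.ext (map_smul g r (x : B)) }
  have sp : Submodule.span (R ⧸ m) (Set.range fun j =>
      (⟨t j, (mt _).2 (t1 j)⟩ : Submodule.torsionBySet R C m)) = ⊤ := by
    refine top_le_iff.1 fun w _ => ?_
    obtain ⟨ρ, e⟩ := (Submodule.mem_span_range_iff_exists_fun R).1 (t2 w ((mt _).1 w.2))
    refine (Submodule.mem_span_range_iff_exists_fun _).2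
      ⟨fun j => Ideal.Quotient.mk m (ρ j), Subtype.ext ?_⟩
    rw [← e, AddSubmonoidClass.coe_finset_sum]
    rfl
  haveI : Module.Finite (R ⧸ m) (Submodule.torsionBySet R C m) :=
    ⟨sp ▸ Submodule.fg_span (Set.finite_range _)⟩
  have hd : Module.finrank (R ⧸ m) (LinearMap.range g') ≤ c :=
    (Submodule.finrank_le _).trans (by simpa using finrank_le_of_span_eq_top sp)
  let b := Module.finBasis (R ⧸ m) (LinearMap.range g')
  choose x hx using fun j => (b j).2
  refine Sc.mono (Nat.add_le_add_left hd a) ⟨Fin.addCases (fun j => f (s j)) fun j => x j,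
    fun j u hu => ?_, fun w hw => ?_⟩
  · refine Fin.addCases (fun j => ?_) (fun j => ?_) j
    · beta_reduce
      rw [Fin.addCases_left, ← map_smul, s1 j u hu, map_zero]
    · beta_reduce
      rw [Fin.addCases_right]
      exact (mt _).1 (x j).2 u hu
  · let w' : Submodule.torsionBySet R B m := ⟨w, (mt _).2 hw⟩
    choose ρ hρ using fun j => Ideal.Quotient.mk_surjective (b.repr ⟨g' w', w', rfl⟩ j)
    have e : g' (w' - ∑ j, Ideal.Quotient.mk m (ρ j) • x j) = 0 := by
      have := congrArg Subtype.val (b.sum_repr ⟨g' w', w', rfl⟩)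
      rw [map_sub, map_sum, sub_eq_zero]
      refine this.symm.trans ?_
      rw [AddSubmonoidClass.coe_finset_sum]
      exact Finset.sum_congr rfl fun j _ => by rw [map_smul, hρ, hx]; rfl
    obtain ⟨y, hy⟩ := (he _).1 (congrArg Subtype.val e)
    have e2 : w = f y + ∑ j, ρ j • (x j : B) := by
      rw [hy, AddSubgroupClass.coe_sub, AddSubmonoidClass.coe_finset_sum]
      exact (sub_add_cancel _ _).symm
    rw [e2]
    refine add_mem ?_ (sum_mem fun j _ => Submodule.smul_mem _ _
      (Submodule.subset_span ⟨Fin.natAdd _ j, Fin.addCases_right _⟩))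
    have := Submodule.mem_map_of_mem (f := f) (s2 y fun u hu => hf (by
      rw [map_smul, map_zero, hy]
      exact (mt _).1 (Subtype.prop _) u hu))
    rw [Submodule.map_span] at this
    refine Submodule.span_mono ?_ this
    rintro _ ⟨_, ⟨j, rfl⟩, rfl⟩
    exact ⟨Fin.castAdd _ j, Fin.addCases_left _⟩

end Vale.Agent.P022G.Ps
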