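import Vale.Agent.P022G.Ps.Tr0
import Vale.Agent.P022G.Top.Tr0

/-!
P022G: row TR0.
-/

namespace Vale.Agent.P022G.Ps

/-- **row TR0** -/
theorem tr0C : Top.TR0 := by
  intro O F _ _ _ _ _ _ _ _ U A h0 _ _ hU hV hA _ Cc Cc' hc hc' P P' J hJ w
  obtain ⟨v, hv⟩ := tr0 hU hV hA hc hc' P P' (J' := resJ A J) hJ
    (fun l => (@Finset.mem_filter _ _ (_) _ _).trans (and_iff_right (Finset.mem_univ _))) w
  exact ⟨{v}, fun p hp => hv p (hp v (Finset.mem_singleton_self v))⟩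

end Vale.Agent.P022G.Ps
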