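import Vale.Agent.P022E.Fm.Prj

/-!
P022G, principal series: the group of the conditions and its character.
-/

set_option linter.all false

noncomputable section

namespace Vale.Agent.P022G.Ps

open Vale.Agent.P022 Vale.Agent.P022D.V Vale.Agent.P022E.V Vale.Agent.P022E.Fm
open Vale.Agent.P022E.Fm.Pj (cg1 cgp un0 ud_mul chi chi_ud cg_val pw_mod)

variable {O : Type} [CommRing O] {M N K n : ℕ}

variable (M N K n) in
/-- the diagonal entries -/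
def Dg (A : (ZMod M)ˣ) : Prop := ∃ c a : (ZMod M)ˣ, P022D.V.Cg M K c 1 ∧ P022D.V.Cg M N a 1 ∧
  A = c * a ^ 2 ^ n

theorem Dg.one : Dg M N K n 1 := ⟨1, 1, cg_refl _, cg_refl _, by simp⟩

theorem Dg.mul {A A' : (ZMod M)ˣ} (h : Dg M N K n A) (h' : Dg M N K n A') :
    Dg M N K n (A * A') := by
  obtain ⟨c, a, h1, h2, rfl⟩ := h
  obtain ⟨c', a', k1, k2, rfl⟩ := h'
  exact ⟨c * c', a * a', cg1 h1 k1, cg1 h2 k2, by rw [mul_pow, mul_mul_mul_comm]⟩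

theorem Dg.inv {A : (ZMod M)ˣ} (h : Dg M N K n A) : Dg M N K n A⁻¹ := by
  obtain ⟨c, a, h1, h2, rfl⟩ := h
  exact ⟨c⁻¹, a⁻¹, cg_inv1 h1, cg_inv1 h2, by rw [mul_inv, inv_pow]⟩

theorem Dg.of_K {c : (ZMod M)ˣ} (h : P022D.V.Cg M K c 1) : Dg M N K n c :=
  ⟨c, 1, h, cg_refl _, by simp⟩

theorem Dg.of_N {a : (ZMod M)ˣ} (h : P022D.V.Cg M N a 1) : Dg M N K n (a ^ 2 ^ n) :=
  ⟨1, a, cg_refl _, h, by simp⟩

theorem Dg.cg {W : ℕ} (h1 : W ∣ K) (h2 : W ∣ N) {A : (ZMod M)ˣ} (h : Dg M N K n A) :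
    P022D.V.Cg M W A 1 := by
  obtain ⟨c, a, k1, k2, rfl⟩ := h
  exact cg1 (cg_dvd2 h1 k1) (cgp (cg_dvd2 h2 k2) _)

variable (M N K n) in
/-- the group of the conditions -/
def HB : Subgroup (GM M) where
  carrier := {g | ∃ x A D, Dg M N K n A ∧ Dg M N K n D ∧ g = un x * dg A D}
  one_mem' := ⟨0, 1, 1, Dg.one, Dg.one, by rw [un0, dg_one, one_mul]⟩
  mul_mem' := by
    rintro _ _ ⟨x, A, D, h, k, rfl⟩ ⟨y, A', D', h', k', rfl⟩
    exact ⟨_, _, _, h.mul h', k.mul k', ud_mul ..⟩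
  inv_mem' := by
    rintro _ ⟨x, A, D, h, k, rfl⟩
    refine ⟨-x * ((A⁻¹ * D⁻¹⁻¹ : (ZMod M)ˣ) : ZMod M), _, _, h.inv, k.inv, ?_⟩
    rw [← P022D.V.Gn.dg_un, mul_inv_rev, dg_inv, inv_eq_of_mul_eq_one_right (b := un (-x))
      (by rw [P022D.V.Gn.un_mul, add_neg_cancel, un0])]

/-- the character -/
def cB (μ ν : ZMod M → O) (w : O) (g : GM M) : O :=
  μ ((g : Matrix (Fin 2) (Fin 2) (ZMod M)) 0 0) * ν ((g : Matrix (Fin 2) (Fin 2) (ZMod M)) 1 1) *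
    w ^ ((g : Matrix (Fin 2) (Fin 2) (ZMod M)) 0 1 *
      Ring.inverse ((g : Matrix (Fin 2) (Fin 2) (ZMod M)) 1 1)).val

theorem cB_ud (μ ν : ZMod M → O) (w : O) (x : ZMod M) (A D : (ZMod M)ˣ) :
    cB μ ν w (un x * dg A D) = μ A * ν D * w ^ x.val := by
  simp [cB, un_coe, dg_coe, Matrix.mul_apply, Fin.sum_univ_two]

/-- the data of the character -/
structure Cd (M W : ℕ) (μ ν : ZMod M → O) (w : O) : Prop where
  m1 : μ 1 = 1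
  n1 : ν 1 = 1
  mm : ∀ a b : (ZMod M)ˣ, μ (a * b : (ZMod M)ˣ) = μ a * μ b
  nm : ∀ a b : (ZMod M)ˣ, ν (a * b : (ZMod M)ˣ) = ν a * ν b
  hw : w ^ W = 1

variable {W : ℕ} {μ ν : ZMod M → O} {w : O}

theorem Cd.one [NeZero M] (h : Cd M W μ ν w) : cB μ ν w (1 : GM M) = 1 := by
  have := cB_ud μ ν w 0 1 1
  rwa [un0, dg_one, mul_one, ZMod.val_zero, pow_zero, mul_one, Units.val_one, h.m1, h.n1,
    mul_one] at this

theorem Cd.add [NeZero M] (h : Cd M W μ ν w) (hW : W ∣ M) (x y : ZMod M) {u : ZMod M}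
    (hu : P022D.V.Cg M W u 1) : w ^ (x + y * u).val = w ^ x.val * w ^ y.val := by
  obtain ⟨t, rfl⟩ := hu
  rw [← pow_add]
  refine pw_mod h.hw (cg_val hW ⟨y * t, ?_⟩)
  rw [Nat.cast_add, ZMod.natCast_zmod_val, ZMod.natCast_zmod_val]
  ring

theorem Cd.mul [NeZero M] (h : Cd M W μ ν w) (hW : W ∣ M) (h1 : W ∣ K) (h2 : W ∣ N) :
    ∀ g ∈ HB M N K n, ∀ g' ∈ HB M N K n, cB μ ν w (g * g') = cB μ ν w g * cB μ ν w g' := by
  rintro _ ⟨x, A, D, a, d, rfl⟩ _ ⟨y, A', D', a', d', rfl⟩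
  rw [ud_mul, cB_ud, cB_ud, cB_ud, h.mm, h.nm, h.add hW x y ((a.mul d.inv).cg h1 h2)]
  ring

variable [Co O]

theorem Cd.stb [NeZero M] (h : Cd M W μ ν w) (hW : W ∣ M) {N' : ℕ} (h2 : W ∣ N') (i : ℕ) :
    Stb (P022D.Fm.HA O M N' i) (Eg O (RD O) (HB M N K n) (cB μ ν w)) := by
  refine stb_Eg fun a d had g hg => ?_
  obtain ⟨x, A, D, h1, h3, rfl⟩ := hg
  refine ⟨un (x * ((d * a⁻¹ : (ZMod M)ˣ) : ZMod M)) * dg A D, ⟨_, _, _, h1, h3, rfl⟩, ?_, ?_⟩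
  · have := h.add hW 0 x (u := ((d * a⁻¹ : (ZMod M)ˣ) : ZMod M)) (by
      have e := cg_mul2 (cg_symm (cg_dvd2 h2 had)) (cg_refl (N := W) ((a⁻¹ : (ZMod M)ˣ) : ZMod M))
      rwa [Units.mul_inv, ← Units.val_mul] at e)
    rw [cB_ud, cB_ud, ← zero_add (x * _), this, ZMod.val_zero, pow_zero, one_mul]
  · rw [mul_assoc, dg_comm A D a d, ← mul_assoc, un_dg', mul_assoc]

theorem eg_un [NeZero M] (h : Cd M W μ ν w) {v : P022D.Fm.AM O M}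
    (hv : v ∈ Eg O (RD O) (HB M N K n) (cB μ ν w)) (x : ZMod M) :
    P022D.Fm.rD O (un x) v = w ^ x.val • v := by
  have := hv _ ⟨x, 1, 1, Dg.one, Dg.one, rfl⟩
  rwa [cB_ud, dg_one, mul_one, Units.val_one, h.m1, h.n1, one_mul, one_mul] at this

theorem eg_dg [NeZero M] {v : P022D.Fm.AM O M}
    (hv : v ∈ Eg O (RD O) (HB M N K n) (cB μ ν w)) {A D : (ZMod M)ˣ} (hA : Dg M N K n A)
    (hD : Dg M N K n D) : P022D.Fm.rD O (dg A D) v = (μ A * ν D) • v := by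
  have := hv _ ⟨0, A, D, hA, hD, rfl⟩
  rwa [cB_ud, un0, one_mul, ZMod.val_zero, pow_zero, mul_one] at this

/-- the upper triangular elements -/
theorem bq_dec {g : GM M} (hg : g ∈ Bq M K) : ∃ (x : ZMod M) (A D : (ZMod M)ˣ),
    P022D.V.Cg M K A 1 ∧ P022D.V.Cg M K D 1 ∧ g = un ((K : ZMod M) * x) * dg A D := by
  obtain ⟨h1, h2⟩ := hg
  have hd : IsUnit (g : Matrix (Fin 2) (Fin 2) (ZMod M)).det :=
    (Matrix.isUnit_iff_isUnit_det _).1 g.isUnit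
  rw [Matrix.det_fin_two, h2, mul_zero, sub_zero, IsUnit.mul_iff] at hd
  obtain ⟨⟨A, hA⟩, ⟨D, hD⟩⟩ := hd
  obtain ⟨y, hy⟩ := h1 0 1
  refine ⟨y * ((D⁻¹ : (ZMod M)ˣ) : ZMod M), A, D, by simpa [hA, P022D.V.Cg] using h1 0 0,
    by simpa [hD, P022D.V.Cg] using h1 1 1, Units.ext ?_⟩
  ext i j
  fin_cases i <;> fin_cases j <;>
    simp [un_coe, dg_coe, Matrix.mul_apply, Fin.sum_univ_two, hA, hD, h2]
  rw [← hD, mul_assoc, mul_assoc, Units.inv_mul, mul_one]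
  simpa using hy

theorem bq_un (x : ZMod M) : un ((K : ZMod M) * x) ∈ Bq M K :=
  ⟨fun i j => by
    rw [un_coe]
    fin_cases i <;> fin_cases j
    exacts [⟨0, by simp⟩, ⟨x, by simp⟩, ⟨0, by simp⟩, ⟨0, by simp⟩], by simp [un_coe]⟩

theorem bq_dg {A D : (ZMod M)ˣ} (hA : P022D.V.Cg M K A 1) (hD : P022D.V.Cg M K D 1) :
    dg A D ∈ Bq M K :=
  ⟨fun i j => by
    rw [dg_coe]
    fin_cases i <;> fin_cases j
    exacts [by simpa [P022D.V.Cg] using hA, ⟨0, by simp⟩, ⟨0, by simp⟩,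
      by simpa [P022D.V.Cg] using hD], by simp [dg_coe]⟩

end Vale.Agent.P022G.Ps
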