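import Vale.Agent.P022G.Ps.Zb
import Vale.Agent.P022G.Ps.Defs

/-!
P022G, principal series: the flat module.
-/

set_option linter.all false

noncomputable section

namespace Vale.Agent.P022G.Ps

open Vale.Agent.P022 Vale.Agent.P022D.V Vale.Agent.P022E.V Vale.Agent.P022E.Fm Vale.Agent.P027M.M
open Vale.Agent.P022D.W.Step (kl Cs Dv mem_kl mem_kl1 cut_dv)
open Vale.Agent.P022D.Fm (rD AM Mt)
open Vale.Agent.P022D.As (Tg cc tt)

/-- a character whose value at `c` has square `-1` -/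
theorem ex_chi {O G : Type} [CommRing O] [IsDomain O] [CommGroup G] [IsCyclic G] {y : O}
    (hy : y * y = -1) (h2 : (-1 : O) ≠ 1) (h4 : 4 ∣ Nat.card G) {c : G}
    (hc : ∀ g : G, ∃ (j : ℕ) (p : G), (∃ e, Odd e ∧ p ^ e = 1) ∧ g = c ^ j * p) :
    ∃ χ : G →* Oˣ, (∀ g, χ g ^ 4 = 1) ∧ (χ c : O) + ((χ c)⁻¹ : Oˣ) = 0 := by
  obtain ⟨g, hg⟩ := IsCyclic.exists_generator (α := G)
  let u : Oˣ := ⟨y, -y, by rw [mul_neg, hy, neg_neg], by rw [neg_mul, hy, neg_neg]⟩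
  have u4 : u ^ 4 = 1 := Units.ext (by
    show y ^ 4 = 1
    linear_combination (y * y - 1) * hy)
  have hd : orderOf u ∣ orderOf g := by
    rw [orderOf_eq_card_of_forall_mem_zpowers hg]
    exact (orderOf_dvd_of_pow_eq_one u4).trans h4
  have eg := monoidHomOfForallMemZpowers_apply_gen hg hd
  generalize monoidHomOfForallMemZpowers hg hd = χ at eg
  have k : ∀ x, χ x ^ 4 = 1 := fun x => by
    obtain ⟨i, rfl⟩ := hg x
    rw [map_zpow, eg, ← zpow_natCast, ← zpow_mul, mul_comm, zpow_mul, zpow_natCast, u4, one_zpow]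
  refine ⟨χ, k, ?_⟩
  obtain ⟨j, p, ⟨e, he, hp⟩, e1⟩ := hc g
  have p1 : χ p = 1 := by
    have := Nat.dvd_gcd (orderOf_dvd_of_pow_eq_one (x := χ p) (n := e) (by
      rw [← map_pow, hp, map_one])) (orderOf_dvd_of_pow_eq_one (k p))
    rwa [((Nat.coprime_two_right.2 he).pow_right 2).gcd_eq_one, Nat.dvd_one,
      orderOf_eq_one_iff] at this
  rw [e1, map_mul, p1, mul_one, map_pow] at eg
  have x4 : (χ c : O) ^ 4 = 1 := congrArg Units.val (k c)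
  have ey : (χ c : O) ^ j = y := congrArg Units.val eg
  have i1 : (χ c : O) * ((χ c)⁻¹ : Oˣ) = 1 := Units.mul_inv _
  rcases mul_eq_zero.1 (show ((χ c : O) ^ 2 - 1) * ((χ c : O) ^ 2 + 1) = 0 by
    linear_combination x4) with a | a
  · exact absurd (by rw [← hy, ← ey, ← pow_two, ← pow_mul, mul_comm, pow_mul, sub_eq_zero.1 a,
      one_pow]) h2
  · linear_combination (((χ c)⁻¹ : Oˣ) : O) * a - (χ c : O) * i1

variable {O F : Type} [CommRing O] [Field F] [Co O] [IsLocalRing O] [CharP F 2] {U : Su O F}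

theorem ex_pd [IsDomain O] (hU : U.OkG) {M : ℕ} [NeZero M] (L : U.Lm M) {y : O} (hy : y * y = -1)
    {a : ℕ} (ha : a ∈ U.L.C) (h4 : 4 ∣ a - 1) : ∃ (κ κ' : ZMod M → O) (w : O), Pd U M κ κ' w ∧
      κ (H853.cyc M (U.L.τ a)) + κ' (H853.cyc M (U.L.τ a)) = 0 := by
  have hl := Finset.mem_union_right U.L.W ha
  have hp := (hU.ok.pr a hl).1
  haveI := Fact.mk hp
  have dN : a ∣ U.N := (hU.dvdN hp).2 hl
  have dM := dN.trans L.dvd
  obtain ⟨χ, c4, c0⟩ := ex_chi (G := (ZMod a)ˣ) (c := H853.cyc a (U.L.τ a)) hy (fun e => by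
      have := congrArg (Co.j : O →+* ℂ) e
      rw [map_neg, map_one] at this
      norm_num at this) (by rwa [Nat.card_eq_fintype_card, ZMod.card_units])
    fun g => cyc_tau (m := a) (k := 1) (m' := 1) hp (by simp) (by simp)
      (hU.ok.hP a hl).1 (hU.ok.hP a hl).2 (hU.ok.tm a hl) g Nat.modEq_one
  have ext : ∀ f : (ZMod M)ˣ → O, ∃ κ : ZMod M → O, ∀ u : (ZMod M)ˣ, κ u = f u := fun f =>
    ⟨Function.extend Units.val f 0, fun u => Units.val_injective.extend_apply _ _ _⟩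
  obtain ⟨κ, k⟩ := ext fun u => χ (ZMod.unitsMap dM u)
  obtain ⟨κ', k'⟩ := ext fun u => ((χ (ZMod.unitsMap dM u))⁻¹ : Oˣ)
  have z1 : (U.z ^ U.NC) ^ U.NW = 1 := by rw [← pow_mul, mul_comm]; exact hU.zN
  have e1 : U.NW - 1 + 1 = U.NW := Nat.sub_add_cancel (Nat.pos_of_ne_zero hU.NW0)
  have x1 : ((U.z ^ U.NC) ^ (U.NW - 1)) ^ U.NW = 1 := by
    rw [← pow_mul, mul_comm, pow_mul, z1, one_pow]
  obtain ⟨m, hm⟩ := exists_pow_eq_self_of_coprime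
    (hU.cop.symm.coprime_dvd_right (orderOf_dvd_of_pow_eq_one x1))
  have rd : ∀ x : Oˣ, x ^ 4 = 1 → U.ϖ ∣ (x : O) - 1 := fun x hx => by
    have a4 : U.S.red x ^ 4 = 1 := by rw [← map_pow, ← Units.val_pow_eq_pow_val, hx]; simp
    have h2 : (2 : F) = 0 := CharTwo.two_eq_zero
    rw [← Nz.red_zeroG hU, map_sub, map_one]
    exact pow_eq_zero_iff (n := 4) (by norm_num) |>.1 (by
      linear_combination a4 + (-2 * U.S.red x ^ 3 + 3 * U.S.red x ^ 2 - 2 * U.S.red x + 1) * h2)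
  refine ⟨κ, κ', ((U.z ^ U.NC) ^ (U.NW - 1)) ^ m, ⟨⟨?_, ?_, fun s t => ?_, fun s t => ?_, ?_⟩, ?_,
    fun s hs => ?_, fun s => ?_, fun s => ?_⟩, ?_⟩
  · rw [mu, hU.cn_om_one L.dvd (cg_refl _), one_mul, ← Units.val_one, k, map_one, map_one]
    rfl
  · rw [← Units.val_one, k', map_one, map_one, inv_one]
    rfl
  · rw [mu, mu, mu, hU.cn_om_mul L.dvd, k, k, k, map_mul, map_mul, Units.val_mul]
    ring
  · rw [k', k', k', map_mul, map_mul, mul_inv, Units.val_mul]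
  · rw [← pow_mul, mul_comm m, pow_mul, x1, one_pow]
  · rw [← pow_mul _ m, mul_comm m, pow_mul _ _ m, hm, ← pow_succ', e1, z1]
  · rw [k, k', (Nz.map_one_iff dM s).2 (cg_dvd2 dN hs), map_one, inv_one]
    exact ⟨rfl, rfl⟩
  · rw [k, k', Units.mul_inv]
  · rw [k, k']
    exact ⟨rd _ (c4 _), rd _ (by rw [inv_pow, c4, inv_one])⟩
  · rw [k, k', cyc_map, c0]

variable [hC : ∀ l : U.L.C, Fact l.1.Prime] (Cc : ∀ l : U.L.C, P022D.Rep.Ch (ZMod l.1) F)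
  {r n : ℕ} {q : Fin r → ℕ} (P : Lq U r n q)

theorem csB (hU : U.OkG) (hQ : LQ U) (hH : Nm.HIGN U) {a : ℕ → ℕ} (ha : U.Ex a) :
    Cs (P.X.Y1 (YB U.bn Cc).v) P.aW (P.nW a) := by
  classical
  rintro _ ⟨w, hS, rfl⟩ hw
  have H := P.lv
  have key := hH P.M n (hQ.1 _ _ _ _ _ _ H) P.X P.ok
  choose e h1 h2 h3 h4 using fun l : U.L.W => Nz.wdatG hU P ha l.2
  have dC : U.NC ∣ U.N := Dvd.intro_left _ rfl
  have id := H66.indG hU H (p := fun l => 2 ^ a l) (e := e) h2 h3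
  have eC : ∀ l, P022D.V.Cg P.M U.NC (e l) 1 := fun l => h2 l _ (dC.trans H.dvd)
    (hU.cop.symm.coprime_dvd_right ((hU.NW l (hU.prW l.2).1).2 l.2))
  have eT : ∀ l : U.L.W, dg (e l ^ 2 ^ a l) (e l ^ 2 ^ a l) ∈ U.TQ P.M n := fun l =>
    ⟨1, 1, cg_refl _, cg_refl _, by rw [h1, one_pow]⟩
  have eW : P.nW a = ∏ l : U.L.W, ∑ j ∈ Finset.range (2 ^ a l),
      (P.X.d (U.L.τ l) : U.B P.M) ^ j := (Finset.prod_coe_sort _ _).symm
  have ht : ∀ γ, γ ∈ Finset.univ.filter (· ∈ SB U.bn) ↔ γ ∈ SB U.bn := by simp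
  obtain ⟨w', e'⟩ := key U.L.W (fun l => 2 ^ a l) e e (fun l => P.X.d (U.L.τ l))
    (fun l => by positivity) h4 (fun l => cg_refl _) eC eT
    (fun k hk => (id k 0 (by simpa using hk)).1) (SB U.bn) _ ht w ((mem_YB _ w).1 hS)
    fun l => H66.fix_of _ (Subtype.ext (hw _ ⟨l, l.2, rfl⟩))
  exact ⟨_, ⟨_, (mem_YB _ _).2 fun γ hγ => Hz.sum_fix P.X.E ht w' hγ, rfl⟩,
    congrArg Subtype.val (eW ▸ e')⟩

theorem gkB (hU : U.OkG) (L : U.Lm P.M) : P.Gk (P.X.Y1 (YB U.bn Cc).v) :=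
  ⟨Bq P.M (P.M / U.NC), fun _ => 1, fun _ hg => Hz.cg_dv (lm_K hU L).1 (Hz.det_Kq hg.1),
    mem_B1 hU L P.ok⟩

/-- the eigenvectors after the cut -/
def Pz (κ κ' : ZMod P.M → O) (w : O) : Submodule (U.B P.M) (U.GG P.M) :=
  kl (U.sb P.M (Zb U P.M n κ κ' w)) P.X.JW

variable {P} {κ κ' : ZMod P.M → O} {w : O} (h : Pd U P.M κ κ' w) (hU : U.OkG) (L : U.Lm P.M)
include h hU L

theorem Pd.pz_le : Pz P κ κ' w ≤ P.X.Z := fun _ hv => ⟨Red.sb_mono (h.le hU L) hv.1, hv.2⟩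

theorem Pd.yB : P.X.Y (YB U.bn Cc).v = kl (Pz P κ κ' w) {algebraMap O (U.B P.M) U.ϖ} := by
  ext v
  rw [Dt.Y, Pz, h.y1 hU L P.ok, mem_kl, mem_kl1, mem_kl1, mem_kl]
  tauto

theorem Pd.ps [NeZero P.M] (hK : CLS U) {a : ℕ} (ha : a ∈ U.L.C) (h1 : U.L.r (U.L.τ a) = 1)
    (h0 : κ (H853.cyc P.M (U.L.τ a)) + κ' (H853.cyc P.M (U.L.τ a)) = 0) {v : U.GG P.M}
    (hv : v ∈ Pz P κ κ' w) : P.X.t (U.L.τ a) • v = 0 := by
  have hl := Finset.mem_union_right U.L.W ha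
  obtain ⟨hp, l2⟩ := hU.ok.pr a hl
  obtain ⟨p1, p2⟩ := hU.ok.hP a hl
  have ta := (hU.ok.tm a hl).tau
  obtain ⟨-, d2, d3, -, d5⟩ := Dic.levG hU L ha
  have hz := (mem_sb (h.stb L)).1 hv.1
  haveI : NeZero (P.M / a) := ⟨fun e => d3 (e ▸ dvd_zero _)⟩
  have c : Dg P.M U.N (P.M / U.NC) n (H853.cyc P.M (U.L.τ a)) := Dg.of_K (cg_dvd2 d2 (Cen.cg_one
    (cyc_inert_mod (Nat.div_dvd_of_dvd d5) hp d3 p1 p2 ta)))
  have e1 := P.ok.op.cn_d_inert hp l2 ⟨_, p1, p2, ta⟩ v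
  rw [(hK _ _ _ P v (h.pz_le hU L hv)).2.1 _ (Or.inr (Or.inr (Or.inl ⟨a, hl, rfl⟩))), Su.dt, h1,
    Matrix.det_one, map_one, one_smul, ← rD_apply, eg_dg hz c c, mu, mul_assoc, h.kk,
    mul_one] at e1
  refine Subtype.ext ((P.ok.op.i1 _ _ (Dic.spG hU L ha) _ ⟨_, p1, p2, ta⟩ _
    (Cen.cy_cyc dvd_rfl _) v (P022D.V.mem_Iv.2 ?_)).trans ?_)
  · rintro _ ⟨x, rfl⟩
    exact h.unK hU L hz ((lm_K hU L).1.trans d2) x
  · rw [eg_dg hz c Dg.one, eg_dg hz Dg.one c, Units.val_one, h.cd.m1, h.cd.n1, mul_one, one_mul,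
      mu, mul_comm, mul_smul, ← e1, ← add_smul, h0, zero_smul]
    rfl

variable [IsDomain O] [IsDiscreteValuationRing O] [P022D.Core.Coef O]

theorem Pd.dvz (hH : HC U) (hL : LQ U) (hT : CUT U) (hN : Nm.HIGN U) :
    Dv (algebraMap O (U.B P.M) U.ϖ) (Pz P κ κ' w) := by
  obtain ⟨Cc, -⟩ := chCG hU
  obtain ⟨ν, a, ha, h1, h2⟩ := hT r n q P
  refine cut_dv (h.dv hU L) (fun v _ => (hH _ L.odd L.asm_three).tor v)
    (fun c k v hv => h1 c k v (Red.sb_mono (h.le hU L) hv)) ?_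
  rw [← h.y1 hU L P.ok (Cc := Cc)]
  exact h2 _ (gkB Cc P hU L) (csB Cc P hU hL hN ha)

theorem Pd.ps2 [NeZero P.M] (hH : HC U) (hL : LQ U) (hT : CUT U) (hN : Nm.HIGN U) (hK : CLS U)
    (hG : GMR U) (hD : DIA U) {a : ℕ} (ha : a ∈ U.L.C) (h1 : U.L.r (U.L.τ a) = 1)
    (h0 : κ (H853.cyc P.M (U.L.τ a)) + κ' (H853.cyc P.M (U.L.τ a)) = 0) :
    Ps2 U.ϖ U.S U.L n q P.τ (U.L.τ a) (Mt P.ev (P.X.Y (YB U.bn Cc).v))
      (Mt P.ev (kl (Pz P κ κ' w) {algebraMap O (U.B P.M) U.ϖ ^ (n + 1)})) := by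
  have e : P.ev (cc U.ϖ) = algebraMap O _ U.ϖ := Red.ev_cc P.X P.u U.ϖ
  have le : kl (Pz P κ κ' w) {algebraMap O (U.B P.M) U.ϖ ^ (n + 1)} ≤ P.X.Z :=
    fun _ hv => h.pz_le hU L hv.1
  exact
    { gm := hG r n q P _ le
      dia := (hD r n q P).2 _ fun _ hv => (le hv).1
      red := Red.red_abs P.ev _ n (by rw [e]; exact h.yB Cc hU L) (by rw [e])
      piC := Red.piC_abs P.ev _ _ (by rw [e])
      flat := Red.flat_abs P.ev _ n (by rw [e]) (by rw [e]; exact h.dvz hU L hH hL hT hN)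
      ps := fun x => Subtype.ext ((congrArg (· • x.1) (N6.ev_tt P _)).trans
        (h.ps hU L hK ha h1 h0 x.2.1)) }

end Vale.Agent.P022G.Ps
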