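import Vale.Agent.P022D.Rep.Hd

/-!
P022G, principal series: the reachable tuples together with the Borel ideals.
-/

set_option linter.all false

noncomputable section

namespace Vale.Agent.P022G.Ps

open Classical Vale.Agent.P022D.Rep

section one

variable {K Γ : Type} [Field K] [Group Γ] [Fintype K] [Fintype Γ]
variable {F : Type} [Field F] [CharP F 2] (D : BN K Γ) (C : Ch K F)

/-- the kernel of the trace in the Borel invariants -/
def Ic : Submodule (MonoidAlgebra F Γ) (MonoidAlgebra F Γ) := Ib D F ⊔ Submodule.span _ {trB D F}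

/-- Whittaker, invariant, or above the Borel ideal -/
abbrev Iy : Type := {a : Submodule (MonoidAlgebra F Γ) (MonoidAlgebra F Γ) //
  (Ig D C ≤ a ∨ a = It F Γ) ∨ a = Ic D ∨ a = Ib D F}

end one

variable {ι : Type} [Fintype ι] [DecidableEq ι] {F : Type} [Field F] [CharP F 2]
  {Γ K : ι → Type} [∀ i, Group (Γ i)] [∀ i, Fintype (Γ i)] [∀ i, Field (K i)] [∀ i, Fintype (K i)]
  (D : ∀ i, BN (K i) (Γ i)) (C : ∀ i, Ch (K i) F)

/-- the tuples -/
abbrev TY : Type := ∀ i, Iy (D i) (C i)

variable {D C} in
/-- the tuple of ideals -/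
def TY.v (a : TY D C) : Tu F Γ := fun i => (a i).1

variable {D C} in
/-- the reachable tuples -/
def inc (a : TX D C) : TY D C := fun i => ⟨(a i).1, Or.inl (a i).2⟩

/-- the Borel invariants -/
def YB : TY D C := fun i => ⟨Ib (D i) F, Or.inr (Or.inr rfl)⟩

/-- the relation of the exact sequences -/
def SesY (a b c : TY D C) : Prop := Ses a.v b.v c.v

/-- the four ideals at one place -/
def yt (i : ι) : Iy (D i) (C i) := ⟨It F (Γ i), Or.inl (Or.inr rfl)⟩
def yp (i : ι) : Iy (D i) (C i) := ⟨Ip (D i) (C i), Or.inl (Or.inl (Ig_le_Ip _ _))⟩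
def yc (i : ι) : Iy (D i) (C i) := ⟨Ic (D i), Or.inr (Or.inl rfl)⟩
def yb (i : ι) : Iy (D i) (C i) := ⟨Ib (D i) F, Or.inr (Or.inr rfl)⟩

variable {D C}

theorem TY.v_update (a : TY D C) (i : ι) (p : Iy (D i) (C i)) :
    TY.v (Function.update a i p) = Function.update a.v i p.1 := by
  funext k
  by_cases hk : k = i
  · subst hk
    simp only [TY.v, Function.update_self]
  · simp only [TY.v, Function.update_of_ne hk]

theorem ses_b (a : TY D C) (i : ι) : SesY D C (Function.update a i (yc D C i))
    (Function.update a i (yb D C i)) (Function.update a i (yt D C i)) :=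
  ⟨a.v, i, _, _, _, col_t (D i) (C i), TY.v_update _ _ _, TY.v_update _ _ _, TY.v_update _ _ _⟩

theorem ses_c (a : TY D C) (i : ι) : SesY D C (Function.update a i (yt D C i))
    (Function.update a i (yc D C i)) (Function.update a i (yp D C i)) :=
  ⟨a.v, i, _, _, _, col_p (D i) (C i), (TY.v_update _ _ _).trans
    (congrArg _ (sup_eq_It (D i) (C i)).symm), TY.v_update _ _ _, TY.v_update _ _ _⟩

/-- **induction** from the reachable tuples -/
theorem TY.ind {Q : TY D C → ℕ → Prop} {b : ℕ} (h0 : ∀ a : TX D C, Q (inc a) b)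
    (hm : ∀ a m k, m ≤ k → Q a m → Q a k)
    (hs : ∀ a c e m k, SesY D C a c e → Q a m → Q e k → Q c (m + k)) (a : TY D C) :
    Q a (3 ^ Fintype.card ι * b) := by
  have key : ∀ (S : Finset ι) (a : TY D C),
      (∀ i ∉ S, Ig (D i) (C i) ≤ (a i).1 ∨ (a i).1 = It F (Γ i)) → Q a (3 ^ S.card * b) := by
    intro S
    induction S using Finset.induction_on with
    | empty =>
      intro a ha
      rw [Finset.card_empty, pow_zero, one_mul]
      exact h0 fun i => ⟨(a i).1, ha i (by simp)⟩
    | insert j S hj ih =>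
      intro a ha
      have up : ∀ p : Iy (D j) (C j), (Ig (D j) (C j) ≤ p.1 ∨ p.1 = It F (Γ j)) →
          Q (Function.update a j p) (3 ^ S.card * b) := fun p hp => ih _ fun i hi => by
        by_cases e : i = j
        · subst e
          rwa [Function.update_self]
        · rw [Function.update_of_ne e]
          exact ha i (by simp [e, hi])
      have t := up (yt D C j) (Or.inr rfl)
      have c := hs _ _ _ _ _ (ses_c a j) t (up (yp D C j) (Or.inl (Ig_le_Ip _ _)))
      rw [Finset.card_insert_of_notMem hj, ← Function.update_eq_self j a, pow_succ, mul_right_comm]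
      rcases (a j).2 with h | h | h
      · exact hm _ _ _ (by omega) (up _ h)
      · rw [show a j = yc D C j from Subtype.ext h]
        exact hm _ _ _ (by omega) c
      · rw [show a j = yb D C j from Subtype.ext h]
        exact hm _ _ _ (by omega) (hs _ _ _ _ _ (ses_b a j) c t)
  exact key Finset.univ a fun i hi => absurd (Finset.mem_univ i) hi

/-- **the factors of the Borel invariants** -/
theorem combB (N : TY D C → ℕ∞) (hN : ∀ a b c, SesY D C a b c → N b = N a + N c) :
    N (YB D C) ≠ 0 ↔ ∃ J, N (inc (XJ D C J)) ≠ 0 := by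
  have e : ∀ (a : TY D C) (i : ι), N (Function.update a i (yb D C i)) ≠ 0 ↔
      N (Function.update a i (yt D C i)) ≠ 0 ∨ N (Function.update a i (yp D C i)) ≠ 0 := by
    intro a i
    rw [hN _ _ _ (ses_b a i), hN _ _ _ (ses_c a i)]
    simp only [ne_eq, add_eq_zero]
    tauto
  let z : Finset ι → Finset ι → TY D C := fun S J i =>
    if i ∈ S then (if i ∈ J then yp D C i else yt D C i) else yb D C i
  have key : ∀ S : Finset ι, N (YB D C) ≠ 0 ↔ ∃ J, N (z S J) ≠ 0 := by
    intro S
    induction S using Finset.induction_on with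
    | empty => exact ⟨fun h => ⟨∅, h⟩, fun ⟨_, h⟩ => h⟩
    | insert j S hj ih =>
      have u : ∀ (J J' : Finset ι) (S' : Finset ι) (p : Iy (D j) (C j)),
          (∀ i, i ≠ j → (i ∈ S' ↔ i ∈ S) ∧ (i ∈ J' ↔ i ∈ J)) → z S' J' j = p →
          Function.update (z S J) j p = z S' J' := by
        intro J J' S' p h1 h2
        funext i
        by_cases c : i = j
        · subst c
          rw [Function.update_self, h2]
        · rw [Function.update_of_ne c]
          simp only [z, (h1 i c).1, (h1 i c).2]
      have ub : ∀ J, Function.update (z S J) j (yb D C j) = z S J := fun J =>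
        u J J S _ (fun _ _ => ⟨Iff.rfl, Iff.rfl⟩) (by simp [z, hj])
      have ut : ∀ J, Function.update (z S J) j (yt D C j) = z (insert j S) (J.erase j) := fun J =>
        u J _ _ _ (fun i c => by simp [c]) (by simp [z])
      have up : ∀ J, Function.update (z S J) j (yp D C j) = z (insert j S) (insert j J) := fun J =>
        u J _ _ _ (fun i c => by simp [c]) (by simp [z])
      rw [ih]
      constructor
      · rintro ⟨J, h⟩
        rw [← ub, e, ut, up] at h
        exact h.elim (fun h => ⟨_, h⟩) fun h => ⟨_, h⟩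
      · rintro ⟨J, h⟩
        refine ⟨J, ?_⟩
        rw [← ub, e, ut, up]
        by_cases c : j ∈ J
        · exact Or.inr (by rwa [Finset.insert_eq_of_mem c])
        · exact Or.inl (by rwa [Finset.erase_eq_of_notMem c])
  rw [key Finset.univ]
  refine exists_congr fun J => ?_
  have : z Finset.univ J = inc (XJ D C J) := by
    funext i
    simp only [z, Finset.mem_univ, if_true, inc, XJ]
    split_ifs <;> rfl
  rw [this]

variable {T W : Type} [Ring T] [AddCommGroup W] [Module T W] (E : Act F Γ T W)

theorem sesY {θ : W →+ W} (h : E.Hig θ) {a b c : TY D C} (s : SesY D C a b c) :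
    ∃ (f : E.Y a.v →ₗ[T] E.Y b.v) (g : E.Y b.v →ₗ[T] E.Y c.v),
      Function.Injective f ∧ Function.Exact f g ∧ Function.Surjective g := by
  obtain ⟨hle, g, i, x, -, h1, h2⟩ := E.ses h s
  exact ⟨Submodule.inclusion hle, g, Submodule.inclusion_injective hle, h1, h2⟩

/-- the product of the Borel subgroups -/
def SB (D : ∀ i, BN (K i) (Γ i)) : Subgroup (∀ i, Γ i) := Subgroup.pi Set.univ fun i => (D i).B

theorem mem_YB (w : W) : w ∈ E.Y (YB D C).v ↔ ∀ γ ∈ SB D, E.ρ γ w = w := by
  constructor
  · intro h γ hγ
    let H : Submonoid (∀ i, Γ i) :=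
      { carrier := {γ | E.ρ γ w = w}
        one_mem' := by
          show E.ρ 1 w = w
          rw [map_one]
          rfl
        mul_mem' := fun {a b} ha hb => by
          show E.ρ (a * b) w = w
          rw [map_mul, Module.End.mul_apply, hb, ha] }
    exact Submonoid.pi_mem_of_mulSingle_mem (H := H) γ fun i =>
      (E.kill_Ib (D i) w).1 (h i) _ (hγ i trivial)
  · intro h i
    refine (E.kill_Ib (D i) w).2 fun b hb => h _ fun j _ => ?_
    by_cases c : j = i
    · subst c
      rwa [Pi.mulSingle_eq_same]
    · rw [Pi.mulSingle_eq_of_ne c]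
      exact (D j).B.one_mem

end Vale.Agent.P022G.Ps
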