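import Vale.Agent.P022G.Ps.TrA
import Vale.Agent.P022G.Top.Drop

/-!
P022G: descent of the forms of level zero to the level without the auxiliary primes.
-/

set_option linter.all false

noncomputable section

namespace Vale.Agent.P022G.Ps

open Vale.Agent.P022 Vale.Agent.P022D.V Vale.Agent.P022E.V Vale.Agent.P022E.Fm Vale.Agent.P027M.M
open Vale.Agent.P022D.Fm (rD AM Mt Lc)
open Vale.Agent.P022D.As (Tg)
open Vale.Agent.P022D.Rep (XJ el)
open Vale.Agent.P022G.Top (dU)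

variable {O F : Type} [CommRing O] [Co O] {M N : ℕ}

/-- descent after a translation -/
def Rt (O : Type) [CommRing O] [Co O] (h : N ∣ M) (g : GM M) : Submodule O (AM O M × AM O N) :=
  LinearMap.eqLocus (rD O g ∘ₗ LinearMap.fst O _ _) (ifl O (RD O) h ∘ₗ LinearMap.snd O _ _)

theorem mem_Rt {h : N ∣ M} {g : GM M} {w : AM O M} {v : AM O N} :
    (w, v) ∈ Rt O h g ↔ rD O g w = ifl O (RD O) h v := Iff.rfl

theorem Rt.z1 {h : N ∣ M} (hM : Odd M) {g : GM M} {v : AM O N} (e : (0, v) ∈ Rt O h g) : v = 0 :=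
  ifl_inj h hM ((mem_Rt.1 e).symm.trans ((map_zero _).trans (map_zero _).symm))

theorem Rt.z2 {h : N ∣ M} {g : GM M} {w : AM O M} (e : (w, 0) ∈ Rt O h g) : w = 0 := by
  have := congrArg (rD O g⁻¹) (mem_Rt.1 e)
  rwa [← Module.End.mul_apply, ← rD_mul, inv_mul_cancel, rD_one, map_zero, map_zero] at this

theorem Rt.tr {h : N ∣ M} {g : GM M} {w : AM O M} {v : AM O N} (e : (w, v) ∈ Rt O h g)
    (m : GM M) {k : GM N} (c : k * pr h g = pr h g * pr h m) : (rD O m w, rD O k v) ∈ Rt O h g := by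
  rw [mem_Rt, eq_mul_inv_of_mul_eq c, ← map_inv, ← map_mul, ← map_mul, rD_apply _ v, ifl_rt,
    ← mem_Rt.1 e, ← rD_apply, ← Module.End.mul_apply, ← Module.End.mul_apply, ← rD_mul, ← rD_mul,
    inv_mul_cancel_right]

theorem Rt.eq {h : N ∣ M} (hM : Odd M) {g : GM M} {w : AM O M} {v v' : AM O N}
    (e : (w, v) ∈ Rt O h g) (e' : (w, v') ∈ Rt O h g) : v = v' :=
  ifl_inj h hM ((mem_Rt.1 e).symm.trans (mem_Rt.1 e'))

variable [Field F]

theorem Rt.hk {U U' : Su O F} (hi : U'.i = U.i) (h : N ∣ M) (g : GM M) : Hk U U' (Rt O h g) := by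
  rintro ⟨p, h₁⟩ ⟨_, h₂⟩ rfl w v e
  rw [hi, mem_Rt, mem_Rt, ifl_T2 h _ (uP_coe ⟨p, h₁⟩) (uP_coe ⟨p, h₂⟩),
    ifl_S2 h _ (uP_coe ⟨p, h₁⟩) (uP_coe ⟨p, h₂⟩), ← mem_Rt.1 e]
  exact ⟨rt_T2 _ _ _ _ _, rt_S2 _ _ _ _ _⟩

theorem Rr.alg {U U' : Su O F} {R : Submodule O (AM O M × AM O N)} (c : O) {v : U.GG M}
    {w : U'.GG N} (h : Rr R v w) :
    Rr R (algebraMap O (U.B M) c • v) (algebraMap O (U'.B N) c • w) := R.smul_mem c h

variable [IsLocalRing O] [CharP F 2] {U : Su O F} {A : Finset ℕ} {h0 : U.S.l0 ∉ A}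
  (hU : U.OkG) (hV : (dU U A h0).OkG) (hA : A ⊆ U.L.C)

include hU hA in
theorem dNC : U.NC = (dU U A h0).NC * ∏ a ∈ A, a := hU.NC.trans (Finset.prod_sdiff hA).symm

include hU hA in
theorem dN : U.N = (dU U A h0).N * ∏ a ∈ A, a := by
  rw [Su.N, dNC (h0 := h0) hU hA, ← mul_assoc]
  rfl

include hU hV hA in
theorem dcop : Nat.Coprime (∏ a ∈ A, a) (dU U A h0).N :=
  Nat.Coprime.prod_left fun a ha => (hU.prC (hA ha)).1.coprime_iff_not_dvd.2 fun e =>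
    (Finset.mem_union.1 ((hV.dvdN (hU.prC (hA ha)).1).1 e)).elim
      (fun k => Finset.disjoint_left.1 hU.ok.dj k (hA ha)) fun k => (Finset.mem_sdiff.1 k).2 ha

variable [hC : ∀ l : U.L.C, Fact l.1.Prime] [hC' : ∀ l : (dU U A h0).L.C, Fact l.1.Prime]

/-- the prime in the larger set -/
abbrev upC (l : (dU U A h0).L.C) : U.L.C := ⟨l.1, (Finset.mem_sdiff.1 l.2).1⟩

variable {Cc : ∀ l : U.L.C, P022D.Rep.Ch (ZMod l.1) F}
  {Cc' : ∀ l : (dU U A h0).L.C, P022D.Rep.Ch (ZMod l.1) F}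

include hU hV hA in
theorem ch_tw (hc : U.IsCh Cc) (hc' : (dU U A h0).IsCh Cc') (L : (dU U A h0).Lm (dU U A h0).N)
    (l : (dU U A h0).L.C) (y : ZMod l.1) :
    (Cc' l).ψ y = (Cc (upC l)).ψ (((∏ a ∈ A, a : ℕ) : ZMod l.1) * y) := by
  obtain ⟨-, -, a3, -, a5⟩ := Dic.levG hV L l.2
  have hu : (((dU U A h0).N / l.1 : ℕ) : ZMod l.1) ≠ 0 := fun e =>
    a3 ((ZMod.natCast_eq_zero_iff _ _).1 e)
  obtain ⟨x, rfl⟩ : ∃ x : ℕ, y = (((dU U A h0).N / l.1 * x : ℕ) : ZMod l.1) :=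
    ⟨(y / (((dU U A h0).N / l.1 : ℕ) : ZMod l.1)).val, by
      rw [Nat.cast_mul, ZMod.natCast_zmod_val, mul_div_cancel₀ _ hu]⟩
  have e : U.N / l.1 = (∏ a ∈ A, a) * ((dU U A h0).N / l.1) := by
    rw [dN (h0 := h0) hU hA, mul_comm, Nat.mul_div_assoc _ a5]
  have b := hc (upC l) x
  have b' := hc' l x
  change _ * U.S.red (U.z ^ ∏ a ∈ A, a) ^ _ = 1 at b'
  rw [map_pow, ← pow_mul] at b'
  change (Cc (upC l)).ψ ((U.N / l.1 * x : ℕ) : ZMod l.1) * U.S.red U.z ^ (U.N / l.1 * x) = 1 at b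
  rw [e, mul_assoc, Nat.cast_mul] at b
  exact (eq_inv_of_mul_eq_one_left b').trans (eq_inv_of_mul_eq_one_left b).symm

variable {X : Dt U U.N 0} {X' : Dt (dU U A h0) (dU U A h0).N 0} (hX : X.Ok) (hX' : X'.Ok)
  (L : U.Lm U.N) (L' : (dU U A h0).Lm (dU U A h0).N) (c : Lc (dU U A h0).N U.N)

include hU hV hA hX hX' L L' in
theorem al_tw (g : GM U.N) (l : (dU U A h0).L.C) (hl : l.1 ∣ U.N) (τ : U.Gam (upC l))
    (hτ : τ = QuotientGroup.mk (pr hl g)) (r : MonoidAlgebra F (U.Gam (upC l))) {x : U.Wb U.N 0}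
    {y : (dU U A h0).Wb (dU U A h0).N 0}
    (h : Rr (Rt O c.dvd g) (x : U.GG U.N) (y : (dU U A h0).GG _)) :
    Rr (Rt O c.dvd g) (X.E.al (upC l) (el F τ⁻¹ * (r * el F τ)) x : U.GG U.N)
      (X'.E.al l r y : (dU U A h0).GG _) := by
  refine P022D.Rep.el_ind (p := fun r => Rr (Rt O c.dvd g)
    (X.E.al (upC l) (el F τ⁻¹ * (r * el F τ)) x : U.GG U.N) (X'.E.al l r y : (dU U A h0).GG _))
    r ?_ ?_ ?_
  · intro γ
    obtain ⟨γ, rfl⟩ := QuotientGroup.mk_surjective γ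
    have s := Dic.spG hV L' l.2
    have d := P022D.Rep.dq s
    obtain ⟨k, a, b⟩ := c.lift (Nat.div_dvd_of_dvd d) (P022D.Rep.emb_mem s γ)
    have a' : k ∈ Kq U.N (U.N / l.1) := by
      rwa [Nat.div_mul_right_comm d, Nat.mul_div_cancel' c.dvd] at a
    have e : pr hl k = γ := by
      rw [← P022D.Fm.pr_pr d c.dvd, b, P022D.Rep.pr_emb]
    have e1 := Dic.rho_kG hU L hX (upC l) hl (Kq_conj a' g) x
    rw [map_mul, map_mul, map_inv, e] at e1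
    have e2 := Dic.rho_embG hV L' hX' l s γ y
    rw [← X'.E.al_el] at e2
    unfold Rr
    rw [← P022D.Rep.el_mul, ← P022D.Rep.el_mul, P022D.Rep.Act.al_el, ← mul_assoc, hτ]
    exact (congrArg₂ (fun z z' => (z, z') ∈ Rt O c.dvd g) e1 e2).mpr (Rt.tr h _ (by
      rw [map_mul, map_mul, map_inv, b, ← mul_assoc, mul_inv_cancel_left]))
  · intro a b ha hb
    have e := congrArg (fun z => z.1.1) (LinearMap.congr_fun ((X'.E.al l).map_add a b) y)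
    rw [add_mul, mul_add, map_add]
    exact (congrArg (fun z => (_, z) ∈ Rt O c.dvd g) e).mpr ((Rt O c.dvd g).add_mem ha hb)
  · intro s a ha
    obtain ⟨s, rfl⟩ := U.S.surj s
    have e := congrArg Subtype.val
      ((LinearMap.congr_fun (X'.E.al_smul l (U.S.red s) a) y).trans (hX'.sc s _))
    rw [smul_mul_assoc, mul_smul_comm, P022D.Rep.Act.al_smul, Module.End.mul_apply, hX.sc]
    exact (congrArg (Rr (Rt O c.dvd g) _) e).mpr (Rr.alg s ha)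

include hU hV hA hX hX' L L' in
theorem desc (hG : GOP (dU U A h0)) (hc : U.IsCh Cc) (hc' : (dU U A h0).IsCh Cc')
    {J : Finset U.L.C} {J' : Finset (dU U A h0).L.C} (hJ : ∀ a ∈ J, a.1 ∉ A)
    (hJ' : ∀ l, l ∈ J' ↔ upC l ∈ J) : ∃ (d : (dU U A h0).N ∣ U.N) (g : GM U.N),
      ∀ w ∈ X.Y (XJ U.bn Cc J).v, ∃ v ∈ X'.Y (XJ (dU U A h0).bn Cc' J').v, Rr (Rt O d g) w v := by
  have eN := dN (h0 := h0) hU hA
  have eC := dNC (h0 := h0) hU hA
  have co := dcop hU hV hA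
  have c : Lc (dU U A h0).N U.N := ⟨⟨_, eN⟩, hU.Nne, by
    rw [eN, Nat.mul_div_cancel_left _ (Nat.pos_of_ne_zero hV.Nne)]
    exact co.symm⟩
  haveI : NeZero U.N := ⟨hU.Nne⟩
  haveI : NeZero (dU U A h0).N := ⟨hV.Nne⟩
  obtain ⟨β, hβ⟩ := ZMod.unitsMap_surjective c.dvd (ZMod.unitOfCoprime _ co)
  have eβ : ZMod.castHom c.dvd (ZMod (dU U A h0).N) β = (∏ a ∈ A, a : ℕ) :=
    (congrArg Units.val hβ).trans (ZMod.coe_unitOfCoprime _ _)
  have eW : U.N / U.NC = U.NW := Nat.mul_div_cancel _ (Nat.pos_of_ne_zero hU.NCne)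
  have eW' : (dU U A h0).N / (dU U A h0).NC = U.NW :=
    Nat.mul_div_cancel _ (Nat.pos_of_ne_zero hV.NCne)
  have dW : U.NW ∣ (dU U A h0).N := Dvd.intro _ rfl
  refine ⟨c.dvd, dg 1 β, ?_⟩
  rintro _ ⟨⟨x, hx, rfl⟩, hj⟩
  have dl : ∀ l : U.L.C, l.1 ∣ U.N := fun l => (Dic.levG hU L l.2).2.2.2.2
  have iv : ∀ k ∈ Kq U.N (dU U A h0).N, rD O k ((x : U.GG U.N) : AM O U.N) = (x : U.GG U.N) := by
    intro k hk
    rw [← hX.act k (eW ▸ P022D.Fm.kq_dvd dW hk) (fun l => QuotientGroup.mk (pr (dl l) k))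
      (fun _ _ => rfl) x, fix_all]
    intro l
    by_cases a : l.1 ∈ A
    · refine (X.E.kill_It l x).1 (fun r hr => hx l r ?_) _
      change r ∈ (XJ U.bn Cc J l).1
      rw [XJ, if_neg fun b => hJ l b a]
      exact hr
    · rw [(Wq.mem_Kq (dl l) k).1 (P022D.Fm.kq_dvd ((hV.dvdN (hC l).out).2
        (Finset.mem_union_right _ (Finset.mem_sdiff.2 ⟨l.2, a⟩))) hk), QuotientGroup.mk_one,
        Pi.mulSingle_one, map_one]
      rfl
  obtain ⟨v, hv, ev⟩ := (gg_ifl' hG c.dvd L.odd hV.three).2 (rD O (dg 1 β) (x : U.GG U.N))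
    (GG_rD (U := U) L.odd hU.three _ _ (x : U.GG U.N).2) (P022D.V.mem_Iv.2 fun k hk => by
      rw [← rD_apply, ← Module.End.mul_apply, ← rD_mul, ← mul_inv_cancel_left (dg 1 β) (k * _),
        ← mul_assoc _ k, rD_mul, Module.End.mul_apply, iv _ (Kq_conj hk _)])
  have R : (((x : U.GG U.N) : AM O U.N), v) ∈ Rt O c.dvd (dg 1 β) := ev.symm
  obtain ⟨⟨⟨x1, x2⟩, -⟩, x3⟩ := (mem_Wb L.dvd hU.zN).1 x.2
  have wb : (⟨v, hv⟩ : (dU U A h0).GG _) ∈ (dU U A h0).Wb _ 0 := by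
    refine (mem_Wb L'.dvd hV.zN).2 ⟨⟨⟨mem_Ce.2 fun a ha => ?_, mem_WhP.2 fun s => ?_⟩,
      fun k hk => Fb.iv0 _ v k (tq_bq hk)⟩, ?_⟩
    · obtain ⟨b, b1, b2⟩ := c.unit dW (eW' ▸ ha)
      have t := Rt.tr R (dg b b) (k := dg a a) (by
        rw [pr_dg _ b, dg_center]
        exact congrArg (fun z => _ * dg z z) (Units.ext b2.symm))
      rw [mem_Ce.1 x1 b (eW ▸ cg_dvd2 (Dvd.intro _ rfl) b1)] at t
      refine (Rt.eq L.odd t ((Rt O c.dvd _).smul_mem _ R)).trans (congrArg (· • v) ?_)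
      refine hV.omp _ _ ?_
      rw [← ZMod.natCast_eq_natCast_iff, ← map_natCast (ZMod.castHom c.dvd (ZMod (dU U A h0).N)),
        ZMod.natCast_zmod_val, ZMod.natCast_zmod_val, b2]
    · have t := (Rt O c.dvd _).smul_mem (U.z ^ (U.NC * s)) (Rt.tr R (un ((U.NC * s : ℕ) : ZMod _))
        (k := un (((dU U A h0).NC * s : ℕ) : ZMod _)) (by
          rw [pr_dg, Red.un_dg, pr_un, map_natCast, map_one, inv_one, Units.val_one, one_mul,
            Units.coe_map, MonoidHom.coe_coe, eβ, ← Nat.cast_mul, eC, mul_right_comm]))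
      rw [Prod.smul_mk, mem_WhP.1 x2 s] at t
      refine Eq.trans ?_ (Rt.eq L.odd t R)
      change (U.z ^ ∏ a ∈ A, a) ^ _ • _ = _
      rw [← pow_mul, ← mul_assoc, mul_comm (∏ a ∈ A, a), ← eC]
    · have t := (Rt O c.dvd _).smul_mem U.ϖ R
      rw [Prod.smul_mk, x3] at t
      exact Rt.z1 L.odd t
  have H := Rt.hk (U := U) (U' := dU U A h0) rfl c.dvd (dg 1 β)
  have td := fun g => H.td hU.Nne hV.Nne hX.op hX'.op g (v := x) (w := ⟨v, hv⟩) R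
  refine ⟨⟨v, hv⟩, ⟨⟨⟨_, wb⟩, fun l r hr => ?_, rfl⟩, ?_⟩, R⟩
  · have t := al_tw hU hV hA hX hX' L L' c (dg 1 β) l (dl (upC l)) _ rfl r (x := x) (y := ⟨_, wb⟩) R
    rw [hx (upC l)] at t
    · exact Subtype.ext (Subtype.ext (Rt.z1 L.odd t))
    refine Submodule.smul_mem _ _ ?_
    change r ∈ (XJ (dU U A h0).bn Cc' J' l).1 at hr
    change _ ∈ (XJ U.bn Cc J (upC l)).1
    rw [XJ] at hr ⊢
    by_cases a : l ∈ J'
    · rw [if_pos a] at hr
      rw [if_pos ((hJ' l).1 a), pr_dg, map_one]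
      refine ip_tw (U.bn (upC l)) (C' := Cc' l) (fun y => ?_) hr
      rw [ch_tw hU hV hA hc hc' L' l y, Units.coe_map, MonoidHom.coe_coe,
        ← ZMod.castHom_comp (Dic.levG hV L' l.2).2.2.2.2 c.dvd, RingHom.comp_apply, eβ,
        map_natCast]
    · rw [if_neg a] at hr
      rw [if_neg fun b => a ((hJ' l).2 b)]
      exact it_tw _ hr
  · rintro _ (⟨g, hg, rfl⟩ | ⟨l, hl, rfl⟩)
    · have t := (Rt O c.dvd _).sub_mem (td g).1 ((Rt O c.dvd _).smul_mem (U.tr g) R)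
      have z := congrArg Subtype.val (hj _ (Or.inl ⟨g, hg, rfl⟩))
      rw [sub_smul] at z ⊢
      exact Subtype.ext (Rt.z1 L.odd ((congrArg (fun z => (z, _) ∈ Rt O c.dvd _) z).mp t))
    · have t := (Rt O c.dvd _).sub_mem (td (U.L.τ l)).2
        ((Rt O c.dvd _).smul_mem (U.dt (U.L.τ l)) R)
      have z := congrArg Subtype.val (hj _ (Or.inr ⟨l, hl, rfl⟩))
      rw [sub_smul] at z ⊢
      exact Subtype.ext (Rt.z1 L.odd ((congrArg (fun z => (z, _) ∈ Rt O c.dvd _) z).mp t))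

end Vale.Agent.P022G.Ps

namespace Vale.Agent.P022G.Ps

open Vale.Agent.P022 Vale.Agent.P022D.V Vale.Agent.P022E.V Vale.Agent.P022E.Fm
open Vale.Agent.P022D.As (Tg)
open Vale.Agent.P022D.Rep (XJ)
open Vale.Agent.P022G.Top (dU)

variable {O F : Type} [CommRing O] [IsDomain O] [IsDiscreteValuationRing O] [P022D.Core.Coef O]
  [Co O] [Field F] [Finite F] [CharP F 2] {U : Su O F} {A : Finset ℕ} {h0 : U.S.l0 ∉ A}
  [hC : ∀ l : U.L.C, Fact l.1.Prime] [hC' : ∀ l : (dU U A h0).L.C, Fact l.1.Prime]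
  {Cc : ∀ l : U.L.C, P022D.Rep.Ch (ZMod l.1) F}
  {Cc' : ∀ l : (dU U A h0).L.C, P022D.Rep.Ch (ZMod l.1) F}

/-- **the transfer at level zero** -/
theorem tr0 (hU : U.OkG) (hV : (dU U A h0).OkG) (hA : A ⊆ U.L.C) (hc : U.IsCh Cc)
    (hc' : (dU U A h0).IsCh Cc') (P : L0 U) (P' : L0 (dU U A h0)) {J : Finset U.L.C}
    {J' : Finset (dU U A h0).L.C} (hJ : ∀ a ∈ J, a.1 ∉ A) (hJ' : ∀ l, l ∈ J' ↔ upC l ∈ J)
    (w : Yy P (inc (XJ U.bn Cc J))) : ∃ v : Yy P' (inc (XJ (dU U A h0).bn Cc' J')),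
      ∀ p : Tg O, p • v = 0 → p • w = 0 := by
  obtain ⟨M, b, τ, X, u, lv, ok, dia⟩ := P
  obtain rfl : M = U.N := lv.eq.trans (by rw [Finset.univ_eq_empty, Finset.prod_empty, mul_one])
  obtain ⟨M, b', τ', X', u', lv', ok', dia'⟩ := P'
  obtain rfl : M = (dU U A h0).N :=
    lv'.eq.trans (by rw [Finset.univ_eq_empty, Finset.prod_empty, mul_one])
  obtain ⟨d, g, h⟩ := desc hU hV hA ok ok' (lv.lmG hU) (lv'.lmG hV) (gopCG hV) hc hc' hJ hJ'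
  obtain ⟨v, hv, R⟩ := h w.1 w.2
  refine ⟨⟨v, hv⟩, fun p hp => Subtype.ext (Subtype.ext ?_)⟩
  have t := (Rt.hk (U := U) (U' := dU U A h0) rfl d g).ev hU.Nne hV.Nne ok ok' u u' p _ _ R
  rw [show X'.ev u' p • v = 0 from congrArg Subtype.val hp] at t
  exact Rt.z2 t

end Vale.Agent.P022G.Ps
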