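import Vale.Agent.P022G.Ps.Main

/-!
P022G: comparison of two systems of forms (general part).
-/

set_option linter.all false

noncomputable section

namespace Vale.Agent.P022G.Ps

open Vale.Agent.P022 Vale.Agent.P022D.V Vale.Agent.P022E.V Vale.Agent.P022E.Fm Vale.Agent.P027M.M
open Vale.Agent.P022D.Fm (rD AM Mt)
open Vale.Agent.P022D.As (Tg cc tt dd yy)

section rep

open Vale.Agent.P022D.Rep

variable {K Γ : Type} [Field K] [Group Γ] [Fintype K] [Fintype Γ] {F : Type} [Field F]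
  [CharP F 2] (D : BN K Γ) {C C' : Ch K F}

theorem ip_tw {α : Kˣ} (h : ∀ x, C'.ψ x = C.ψ (α * x)) {r : MonoidAlgebra F Γ}
    (hr : r ∈ Ip D C') : r * el F (D.t 1 α) ∈ Ip D C := by
  have li : C'.li = C.li := by linear_combination C.li * C'.li_mul - C'.li * C.li_mul
  have e1 : ee D C' 1 = ee D C α := by
    unfold ee
    rw [li]
    exact congrArg _ (Finset.sum_congr rfl fun x _ => by rw [h, one_mul, mul_neg])
  have e2 : el F (D.t 1 α) * ee D C 1 = ee D C' 1 * el F (D.t 1 α) := by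
    rw [t_ee, e1, one_mul, inv_one, Units.val_one, mul_one]
  have e3 : el F (D.t 1 α) * v0 D C = v0 D C' := by
    unfold v0
    rw [← mul_assoc, ← mul_assoc, e2, mul_assoc (ee D C' 1), ← el_mul, ← D.w_t, el_mul,
      ← mul_assoc, mul_assoc _ _ (nB D F), b_nB D (D.t_mem _ _)]
  intro a
  refine chi_of D C ?_
  have e4 := chi_spec D C' (el F (D.t 1 α) * a * r)
  rw [hr, zero_smul, ← e3] at e4
  rw [zero_smul, ← one_mul (ee D C 1), ← el_one, ← inv_mul_cancel (D.t 1 α), el_mul,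
    mul_assoc _ _ (ee D C 1), e2]
  have := congrArg (el F (D.t 1 α)⁻¹ * ·) e4
  simpa only [mul_assoc, mul_zero] using this

theorem it_tw (g : Γ) {r : MonoidAlgebra F Γ} (hr : r ∈ It F Γ) : r * el F g ∈ It F Γ := by
  refine (Submodule.span_le (p := (It F Γ).comap
    (LinearMap.toSpanSingleton _ _ (el F g)))).2 ?_ hr
  rintro _ ⟨k, rfl⟩
  show (el F k - 1) * el F g ∈ It F Γ
  rw [sub_mul, one_mul, ← el_mul, ← sub_sub_sub_cancel_right _ _ 1]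
  exact sub_mem (Submodule.subset_span ⟨_, rfl⟩) (Submodule.subset_span ⟨_, rfl⟩)

theorem fix_all {ι : Type} [Fintype ι] [DecidableEq ι] {Γ : ι → Type} [∀ i, Group (Γ i)]
    [∀ i, Fintype (Γ i)] {T W : Type} [Ring T] [AddCommGroup W] [Module T W] (E : Act F Γ T W)
    {w : W} (γ : ∀ i, Γ i) (h : ∀ i, E.ρ (Pi.mulSingle i (γ i)) w = w) : E.ρ γ w = w := by
  let H : Submonoid (∀ i, Γ i) :=
    { carrier := {γ | E.ρ γ w = w}
      one_mem' := by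
        show E.ρ 1 w = w
        rw [map_one]
        rfl
      mul_mem' := fun {a b} ha hb => by
        show E.ρ (a * b) w = w
        rw [map_mul, Module.End.mul_apply, hb, ha] }
  exact Submonoid.pi_mem_of_mulSingle_mem (H := H) γ h

end rep

variable {O F : Type} [CommRing O] [Field F] [Co O] {U₁ U₂ : Su O F} {M₁ M₂ : ℕ}

/-- a correspondence which respects the Hecke operators -/
def Hk (U₁ U₂ : Su O F) (R : Submodule O (AM O M₁ × AM O M₂)) : Prop :=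
  ∀ (ℓ₁ : PA M₁) (ℓ₂ : PA M₂), ℓ₁.1 = ℓ₂.1 → ∀ v w, (v, w) ∈ R →
    (T2 O (RD O) U₁.i ℓ₁.1 (P022D.Fm.uP ℓ₁) v, T2 O (RD O) U₂.i ℓ₂.1 (P022D.Fm.uP ℓ₂) w) ∈ R ∧
    (S2 O (RD O) U₁.i ℓ₁.1 (P022D.Fm.uP ℓ₁) v, S2 O (RD O) U₂.i ℓ₂.1 (P022D.Fm.uP ℓ₂) w) ∈ R

/-- the correspondence on the carriers -/
def Rr (R : Submodule O (AM O M₁ × AM O M₂)) (v : U₁.GG M₁) (w : U₂.GG M₂) : Prop :=
  ((v : AM O M₁), (w : AM O M₂)) ∈ R

variable {R : Submodule O (AM O M₁ × AM O M₂)} (C : Hk U₁ U₂ R) (z₁ : M₁ ≠ 0) (z₂ : M₂ ≠ 0)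
include C z₁ z₂

theorem Hk.td {t₁ : GQ → U₁.B M₁} {d₁ : GQ →* (U₁.B M₁)ˣ} {t₂ : GQ → U₂.B M₂}
    {d₂ : GQ →* (U₂.B M₂)ˣ} (h₁ : U₁.Op t₁ d₁) (h₂ : U₂.Op t₂ d₂) (g : GQ) {v : U₁.GG M₁}
    {w : U₂.GG M₂} (h : Rr R v w) :
    Rr R (t₁ g • v) (t₂ g • w) ∧ Rr R ((d₁ g : U₁.B M₁) • v) ((d₂ g : U₂.B M₂) • w) := by
  obtain ⟨V₁, n₁, o₁, -, e₁⟩ := h₁.opn v
  obtain ⟨V₂, n₂, o₂, -, e₂⟩ := h₂.opn w
  obtain ⟨ℓ, φ, k, hl, hS, hφ, hu⟩ := P022D.G.frob (V₁ ⊓ V₂) inferInstance (o₁.inter o₂) g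
    ((2 * M₁).primeFactors ∪ (2 * M₂).primeFactors)
  rw [Finset.mem_union, not_or] at hS
  let ℓ₁ : PA M₁ := ⟨ℓ, hl, fun e => hS.1
    (Nat.mem_primeFactors.2 ⟨hl, e, mul_ne_zero two_ne_zero z₁⟩)⟩
  let ℓ₂ : PA M₂ := ⟨ℓ, hl, fun e => hS.2
    (Nat.mem_primeFactors.2 ⟨hl, e, mul_ne_zero two_ne_zero z₂⟩)⟩
  have H : ∀ (a : U₁.GG M₁) (b : U₂.GG M₂), Rr R a b → Rr R (t₁ φ • a) (t₂ φ • b) ∧
      Rr R ((d₁ φ : U₁.B M₁) • a) ((d₂ φ : U₂.B M₂) • b) := fun a b r => by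
    unfold Rr
    rw [h₁.frT ℓ₁ φ hφ, h₂.frT ℓ₂ φ hφ, h₁.frS ℓ₁ φ hφ, h₂.frS ℓ₂ φ hφ]
    exact C ℓ₁ ℓ₂ rfl _ _ r
  have ht : ∀ k : ℕ, (∀ (a : U₁.GG M₁) (b : U₂.GG M₂), Rr R a b →
      Rr R (t₁ (φ ^ k) • a) (t₂ (φ ^ k) • b)) ∧ ∀ (a : U₁.GG M₁) (b : U₂.GG M₂), Rr R a b →
      Rr R (t₁ (φ ^ (k + 1)) • a) (t₂ (φ ^ (k + 1)) • b) := by
    intro k
    induction k with
    | zero =>
      refine ⟨fun a b r => ?_, fun a b r => by rw [zero_add, pow_one]; exact (H a b r).1⟩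
      rw [pow_zero, h₁.tf.one, h₂.tf.one, two_smul, two_smul]
      exact R.add_mem r r
    | succ k ih =>
      refine ⟨ih.2, fun a b r => ?_⟩
      have x := h₁.tf.mul (φ ^ (k + 1)) φ
      have y := h₂.tf.mul (φ ^ (k + 1)) φ
      rw [← pow_succ, pow_succ φ k, mul_inv_cancel_right, ← pow_succ φ k] at x y
      rw [eq_sub_of_add_eq x.symm, eq_sub_of_add_eq y.symm, sub_smul, sub_smul, mul_smul, mul_smul,
        mul_smul, mul_smul]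
      exact R.sub_mem (ih.2 _ _ (H a b r).1) (H _ _ (ih.1 a b r)).2
  have hd : ∀ (k : ℕ) (a : U₁.GG M₁) (b : U₂.GG M₂), Rr R a b →
      Rr R ((d₁ (φ ^ k) : U₁.B M₁) • a) ((d₂ (φ ^ k) : U₂.B M₂) • b) := by
    intro k
    induction k with
    | zero =>
      intro a b r
      rwa [pow_zero, map_one, map_one, Units.val_one, Units.val_one, one_smul, one_smul]
    | succ k ih =>
      intro a b r
      rw [pow_succ, map_mul, map_mul, Units.val_mul, Units.val_mul, mul_smul, mul_smul]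
      exact ih _ _ (H a b r).2
  have eg : φ ^ k = g * (g⁻¹ * φ ^ k) := by rw [mul_inv_cancel_left]
  constructor
  · rw [← (e₁ _ hu.1).2 g, ← (e₂ _ hu.2).2 g, ← eg]
    exact (ht k).1 v w h
  · have a := hd k v w h
    rwa [eg, map_mul d₁ g, map_mul d₂ g, Units.val_mul, Units.val_mul, mul_smul, mul_smul,
      (e₁ _ hu.1).1, (e₂ _ hu.2).1] at a

theorem Hk.ev [IsLocalRing O] [CharP F 2] [∀ l : U₁.L.C, Fact l.1.Prime]
    [∀ l : U₂.L.C, Fact l.1.Prime] {n₁ n₂ : ℕ} {X₁ : Dt U₁ M₁ n₁} {X₂ : Dt U₂ M₂ n₂}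
    (h₁ : X₁.Ok) (h₂ : X₂.Ok) (u₁ : Fin 0 ⊕ Fin 0 → U₁.B M₁) (u₂ : Fin 0 ⊕ Fin 0 → U₂.B M₂)
    (p : Tg O) : ∀ (v : U₁.GG M₁) (w : U₂.GG M₂), Rr R v w →
      Rr R (X₁.ev u₁ p • v) (X₂.ev u₂ p • w) := by
  induction p using MvPolynomial.induction_on with
  | C c =>
    intro v w h
    have : Rr R (algebraMap O (U₁.B M₁) c • v) (algebraMap O (U₂.B M₂) c • w) := R.smul_mem c h
    rwa [← Fb.ev_c X₁ u₁, ← Fb.ev_c X₂ u₂] at this
  | add p p' a b =>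
    intro v w h
    rw [map_add, map_add, add_smul, add_smul]
    exact R.add_mem (a v w h) (b v w h)
  | mul_X p s a =>
    intro v w h
    rw [map_mul, map_mul, mul_smul, mul_smul]
    apply a
    rcases s with g | g | i
    · have := (C.td z₁ z₂ h₁.op h₂.op g h).1
      rwa [← Fb.ev_t X₁ u₁, ← Fb.ev_t X₂ u₂] at this
    · have := (C.td z₁ z₂ h₁.op h₂.op g h).2
      rwa [← Fb.ev_d X₁ u₁, ← Fb.ev_d X₂ u₂] at this
    · change Rr R (X₁.ev u₁ (yy i) • v) (X₂.ev u₂ (yy i) • w)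
      rw [Fb.ev_y, Fb.ev_y, dif_neg (Nat.not_lt_zero i), dif_neg (Nat.not_lt_zero i), zero_smul,
        zero_smul]
      exact R.zero_mem

end Vale.Agent.P022G.Ps
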